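import Vale.Agent.P267.H556.Ident
import Vale.Agent.P267.H87.Norm

/-!
# P267, package CHI-NEG: `S₀` is closed (normal families)
-/

set_option linter.unusedSectionVars false

open scoped Manifold ContDiff ComplexConjugate Matrix ComplexOrder
open Set Filter Topology Metric

noncomputable section

namespace Vale.Agent.P267.H556

open Vale.Agent.P267.FL Vale.Agent.P267.RR Vale.Agent.P267.XT

variable {X : Type} [TopologicalSpace X] [ChartedSpace C2 X] [IsManifold 𝓘(ℂ, C2) ω X]
variable {ι : Type} [Fintype ι] [DecidableEq ι]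
variable {h : X → Matrix (Fin 2) (Fin 2) ℂ}

theorem dh_pos (hh : IsHerm h) (x : X) : 0 < (h x).det.re := by
  have := (hh.posDef x).det_pos
  rw [Complex.lt_def] at this
  simpa using this.1

theorem n0_pos_iff (hh : IsHerm h) {κ : ℤ} {s : X → EuclideanSpace ℂ ι} {x : X} :
    0 < n0 h κ s x ↔ s x ≠ 0 := by
  have h1 : 0 < dh h x ^ (-(κ : ℝ) / 2) := Real.rpow_pos_of_pos (dh_pos hh x) _
  rw [n0]
  constructor
  · intro h2 h3
    rw [h3, norm_zero, zero_mul] at h2
    exact lt_irrefl _ h2
  · intro h2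
    exact mul_pos (norm_pos_iff.2 h2) h1

theorem n0_nonneg (hh : IsHerm h) {κ : ℤ} {s : X → EuclideanSpace ℂ ι} {x : X} :
    0 ≤ n0 h κ s x := H87.N0_nonneg (hh.posDef x) _

theorem n0_smul {κ : ℤ} {s : X → EuclideanSpace ℂ ι} {x : X} (c : ℂ) :
    n0 h κ (c • s) x = ‖c‖ * n0 h κ s x := by
  rw [n0, n0, Pi.smul_apply, norm_smul, mul_assoc]

/-- the maximum of the pointwise norm -/
theorem exists_max [CompactSpace X] (hh : IsHerm h) {n : WithTop ℕ∞} {κ : ℤ}
    {s : X → EuclideanSpace ℂ ι} (hs : Reg0 n κ s) (hs0 : s ≠ 0) :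
    ∃ x, s x ≠ 0 ∧ ∀ y, n0 h κ s y ≤ n0 h κ s x := by
  obtain ⟨x0, hx0⟩ : ∃ x, s x ≠ 0 := by
    by_contra h'
    push Not at h'
    exact hs0 (funext h')
  obtain ⟨x, -, hx⟩ := isCompact_univ.exists_isMaxOn ⟨x0, mem_univ x0⟩
    (H87.continuous_n0 hh hs).continuousOn
  refine ⟨x, ?_, fun y => hx (mem_univ y)⟩
  rw [← n0_pos_iff hh (κ := κ)]
  exact ((n0_pos_iff hh).2 hx0).trans_le (hx (mem_univ x0))

/-- normalisation of a nonzero section -/
theorem exists_unit [CompactSpace X] (hh : IsHerm h) {L : LB X ι} {a : X → Fin 2 → ℂ} {κ : ℤ}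
    (hne : H0 L a κ ≠ ⊥) :
    ∃ s ∈ H0 L a κ, (∀ y, n0 h κ s y ≤ 1) ∧ ∃ x, n0 h κ s x = 1 := by
  obtain ⟨s, hs, hs0⟩ := Submodule.exists_mem_ne_zero_of_ne_bot hne
  obtain ⟨x, hx, hmax⟩ := exists_max hh ((mem_H0 _ _ _).1 hs).1.1 hs0
  have hp : 0 < n0 h κ s x := (n0_pos_iff hh).2 hx
  refine ⟨((n0 h κ s x : ℂ))⁻¹ • s, (H0 L a κ).smul_mem _ hs, fun y => ?_, x, ?_⟩
  · rw [n0_smul, norm_inv, Complex.norm_of_nonneg hp.le, inv_mul_le_iff₀ hp, mul_one]
    exact hmax y
  · rw [n0_smul, norm_inv, Complex.norm_of_nonneg hp.le, inv_mul_cancel₀ hp.ne']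

/-- comparison of the norm of the components in a chart with the metric norm -/
theorem norm_loc0_eq (hh : IsHerm h) {κ : ℤ} {s : X → EuclideanSpace ℂ ι} {e : Ch X}
    (he : e ∈ atlas C2 X) {z : C2} (hz : z ∈ e.target) :
    ‖loc0 κ e s z‖ = n0 h κ s (e.symm z) * (loc11 e h z).det.re ^ ((κ : ℝ) / 2) := by
  have h1 := H87.n0_chart hh.posDef κ s he (e.map_target hz)
  rw [e.right_inv hz] at h1
  have h2 : 0 < (loc11 e h z).det.re := by
    have := (H87.loc11_posDef hh.posDef he (e.map_target hz)).det_pos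
    rw [e.right_inv hz, Complex.lt_def] at this
    simpa using this.1
  rw [h1, H87.N0, mul_assoc, ← Real.rpow_add h2]
  have : -(κ : ℝ) / 2 + (κ : ℝ) / 2 = 0 := by ring
  rw [this, Real.rpow_zero, mul_one]

theorem det_loc11_pos (hh : IsHerm h) {e : Ch X} (he : e ∈ atlas C2 X) {z : C2}
    (hz : z ∈ e.target) : 0 < (loc11 e h z).det.re := by
  have := (H87.loc11_posDef hh.posDef he (e.map_target hz)).det_pos
  rw [e.right_inv hz, Complex.lt_def] at this
  simpa using this.1

theorem continuousOn_loc11 (hh : IsHerm h) {e : Ch X} (he : e ∈ atlas C2 X) :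
    ContinuousOn (fun z => loc11 e h z) e.target := by
  refine continuousOn_pi.2 fun i => continuousOn_pi.2 fun j => ?_
  exact (hh.smooth e he i j).continuousOn

theorem continuousOn_det (hh : IsHerm h) {e : Ch X} (he : e ∈ atlas C2 X) :
    ContinuousOn (fun z => (loc11 e h z).det.re) e.target :=
  Complex.continuous_re.comp_continuousOn
    ((Continuous.matrix_det continuous_id).comp_continuousOn (continuousOn_loc11 hh he))

/-- **`S₀` is closed.** -/
theorem isClosed_S0 [CompactSpace X] (hh : IsHerm h) {L : LB X ι} {a β : X → Fin 2 → ℂ}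
    {κ : ℤ} (hβ : Reg1 ∞ 0 β) (hf : ∀ z : ℂ, H378.HasFrames L (a + z • β)) :
    IsClosed (S0 L a β κ) := by
  rw [← isSeqClosed_iff_isClosed]
  intro zn z hzn hlim
  have hex : ∀ n, ∃ s ∈ H0 L (a + zn n • β) κ, (∀ y, n0 h κ s y ≤ 1) ∧ ∃ x, n0 h κ s x = 1 :=
    fun n => exists_unit hh (hzn n)
  choose u hu hle x hx using hex
  have hloc1 : ∀ (e : Ch X) (w : ℂ) (y : C2), loc1 0 e (a + w • β) y =
      loc1 0 e a y + w • loc1 0 e β y := by
    intro e w y
    funext i
    rw [RR.loc1_add, RR.loc1_smul]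
    rfl
  have hdz : ∀ (e : Ch X) (n : ℕ), loc1 κ e (LB.db0 L (a + zn n • β) κ (u n)) =
      loc1 κ e (0 : X → Fin 2 → EuclideanSpace ℂ ι) := by
    intro e n
    rw [((mem_H0 _ _ _).1 (hu n)).2]
  have H : H378.NFHyp L (a + z • β) κ 0 (fun _ => L) (fun n => a + zn n • β) u :=
    { frames := hf z
      sol := H378.locSol_zero _ _ _
      eqL := fun K hK => Eventually.of_forall fun n x hx => rfl
      lima := by
        intro e he K hK hKc
        have hbc : ContinuousOn (loc1 0 e β) K := (hβ e he).continuousOn.mono hK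
        obtain ⟨B, hB⟩ := hKc.exists_bound_of_continuousOn hbc
        rw [Metric.tendstoUniformlyOn_iff]
        intro ε hε
        have h1 : ∀ᶠ n in atTop, dist (zn n) z < ε / (|B| + 1) :=
          (Metric.tendsto_nhds.1 hlim) _ (by positivity)
        filter_upwards [h1] with n hn y hy
        rw [hloc1, hloc1, dist_add_left, dist_eq_norm, ← sub_smul, norm_smul]
        rw [dist_comm, dist_eq_norm] at hn
        calc ‖z - zn n‖ * ‖loc1 0 e β y‖ ≤ ‖z - zn n‖ * (|B| + 1) := by
              refine mul_le_mul_of_nonneg_left ?_ (norm_nonneg _)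
              linarith [hB y hy, le_abs_self B]
          _ < ε / (|B| + 1) * (|B| + 1) := by
              refine mul_lt_mul_of_pos_right hn (by positivity)
          _ = ε := by field_simp
      reg := fun n e he => ((((mem_H0 _ _ _).1 (hu n)).1.1) e he).of_le (by norm_num)
      sec := fun n => ((mem_H0 _ _ _).1 (hu n)).1.2
      bdd := by
        intro e he K hK hKc
        have hc : ContinuousOn (fun z => (loc11 e h z).det.re ^ ((κ : ℝ) / 2)) K :=
          ((continuousOn_det hh he).mono hK).rpow_const fun z hz =>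
            Or.inl (det_loc11_pos hh he (hK hz)).ne'
        obtain ⟨B, hB⟩ := hKc.exists_bound_of_continuousOn hc
        refine ⟨B, Eventually.of_forall fun n y hy => ?_⟩
        rw [norm_loc0_eq hh he (hK hy)]
        have h2 := hB y hy
        rw [Real.norm_of_nonneg (Real.rpow_nonneg (det_loc11_pos hh he (hK hy)).le _)] at h2
        calc n0 h κ (u n) (e.symm y) * (loc11 e h y).det.re ^ ((κ : ℝ) / 2)
            ≤ 1 * (loc11 e h y).det.re ^ ((κ : ℝ) / 2) :=
              mul_le_mul_of_nonneg_right (hle n _)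
                (Real.rpow_nonneg (det_loc11_pos hh he (hK hy)).le _)
          _ ≤ B := by rw [one_mul]; exact h2
      db := by
        intro e he K hK hKc
        rw [Metric.tendstoUniformlyOn_iff]
        intro ε hε
        refine Eventually.of_forall fun n y hy => ?_
        rw [hdz e n, dist_self]
        exact hε }
  obtain ⟨φ, hφ, v, hv1, hv2, hv3, hpt, hun⟩ := H.exists_subseq
  have hv : v ∈ H0 L (a + z • β) κ := (mem_H0 _ _ _).2 ⟨⟨hv1, hv2⟩, hv3⟩
  intro hbot
  rw [hbot, Submodule.mem_bot] at hv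
  -- the norms tend to zero uniformly on `X`
  have key : ∀ᶠ n in atTop, ∀ y ∈ (univ : Set X), n0 h κ (u (φ n)) y < 1 := by
    refine isCompact_univ.induction_on (p := fun S => ∀ᶠ n in atTop, ∀ y ∈ S,
      n0 h κ (u (φ n)) y < 1) ?_ ?_ ?_ ?_
    · exact Eventually.of_forall fun n y hy => absurd hy (notMem_empty y)
    · intro S T hST hT
      exact hT.mono fun n hn y hy => hn y (hST hy)
    · intro S T hS hT
      filter_upwards [hS, hT] with n h1 h2 y hy
      rcases hy with hy | hy
      · exact h1 y hy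
      · exact h2 y hy
    · intro x0 _
      set e := chartAt C2 x0 with he'
      have he : e ∈ atlas C2 X := chart_mem_atlas C2 x0
      have hxs : x0 ∈ e.source := mem_chart_source C2 x0
      have hxt : e x0 ∈ e.target := e.map_source hxs
      obtain ⟨r, hr, hrt⟩ := Metric.nhds_basis_closedBall.mem_iff.1
        (e.open_target.mem_nhds hxt)
      have hKc : IsCompact (closedBall (e x0) r) := isCompact_closedBall _ _
      have hc : ContinuousOn (fun z => (loc11 e h z).det.re ^ (-(κ : ℝ) / 2))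
          (closedBall (e x0) r) :=
        ((continuousOn_det hh he).mono hrt).rpow_const fun z hz =>
          Or.inl (det_loc11_pos hh he (hrt hz)).ne'
      obtain ⟨B, hB⟩ := hKc.exists_bound_of_continuousOn hc
      have h1 := Metric.tendstoUniformlyOn_iff.1 (hun e he _ hrt hKc) (1 / (|B| + 1))
        (by positivity)
      refine ⟨e.source ∩ e ⁻¹' ball (e x0) r, ?_, ?_⟩
      · refine mem_nhdsWithin_of_mem_nhds ((e.isOpen_inter_preimage isOpen_ball).mem_nhds
          ⟨hxs, mem_ball_self hr⟩)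
      · filter_upwards [h1] with n hn y hy
        have hyb : e y ∈ closedBall (e x0) r := ball_subset_closedBall hy.2
        have h2 := hn (e y) hyb
        have h3 : loc0 κ e v (e y) = 0 := by
          rw [hv, loc0]; simp
        rw [h3, dist_zero_left] at h2
        rw [H87.n0_chart hh.posDef κ (u (φ n)) he hy.1, H87.N0]
        have h4 := hB (e y) hyb
        rw [Real.norm_of_nonneg (Real.rpow_nonneg (det_loc11_pos hh he (hrt hyb)).le _)] at h4
        calc ‖loc0 κ e (u (φ n)) (e y)‖ * (loc11 e h (e y)).det.re ^ (-(κ : ℝ) / 2)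
            ≤ ‖loc0 κ e (u (φ n)) (e y)‖ * (|B| + 1) := by
              refine mul_le_mul_of_nonneg_left ?_ (norm_nonneg _)
              linarith [le_abs_self B]
          _ < 1 / (|B| + 1) * (|B| + 1) := mul_lt_mul_of_pos_right h2 (by positivity)
          _ = 1 := by field_simp
  obtain ⟨n, hn⟩ := key.exists
  have := hn (x (φ n)) (mem_univ _)
  rw [hx] at this
  exact lt_irrefl _ this

end Vale.Agent.P267.H556
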