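import Vale.Agent.P267.H556.Twist
import Vale.Agent.P267.H622.CovMaps
import Vale.Agent.P267.H399.Calc2

/-!
# P267, package CHI-NEG: the twist on the finite cyclic covers `CovM hh m`
-/

set_option linter.unusedSectionVars false

open scoped Manifold ContDiff ComplexConjugate Matrix ComplexOrder
open Set Filter Topology Metric

noncomputable section

namespace Vale.Agent.P267.H556

open Vale.Agent.P267.FL Vale.Agent.P267.RR Vale.Agent.P267.XT Vale.Agent.P267.H158

variable {X : Type} [TopologicalSpace X] [ChartedSpace C2 X] [IsManifold 𝓘(ℂ, C2) ω X]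
variable {hh : C(X, UnitAddCircle)}

/-- The twist on `CovM hh m`: the metric `g ∘ p` and the form `β` which pulls back to `∂̄f`. -/
def covTwist (m : ℕ) [NeZero m] (D : XTData (Cov hh)) (hf : ∀ x, D.f x = Cov.f x)
    (g : X → Matrix (Fin 2) (Fin 2) ℂ) (hg : IsHerm g) (hgD : ∀ x, D.h x = g (Cov.p x)) :
    TwistData (CovM hh m) := by
  have hper : ∀ z, dbar0 0 (fun y => (D.f y : ℂ)) (Cov.shift m z) =
      dbar0 0 (fun y => (D.f y : ℂ)) z := by
    intro z
    have h1 := (chartMap_shift (hh := hh) (m : ℤ)).dbar0_comp 0 (fun y => (D.f y : ℂ)) z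
    rw [← h1]
    have h2 : (fun z => ((D.f (Cov.shift (m : ℤ) z) : ℝ) : ℂ)) =
        fun z => (D.f z : ℂ) + (m : ℂ) := by
      funext z
      rw [hf, hf, Cov.f_shift]
      push_cast
      ring
    rw [h2]
    funext i
    have h3 := FL.dbar0_add (κ := 0) (s := fun y => (D.f y : ℂ)) (t := fun _ => (m : ℂ)) (x := z)
      ((D.f_smooth.at z).of_le (by norm_num)) at0_const
    rw [h3]
    simp [FL.dbar0_const]
  have hβ : ∀ x, dnM m (dbar0 0 (fun y => (D.f y : ℂ))) (Cov.toM m x) =
      dbar0 0 (fun y => (D.f y : ℂ)) x := dnM_toM hper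
  have hβ' : (fun x => dnM m (dbar0 0 (fun y => (D.f y : ℂ))) (Cov.toM m x)) =
      dbar0 0 (fun y => (D.f y : ℂ)) := funext hβ
  have hq : ChartMap (Cov.toM m : Cov hh → CovM hh m) := chartMap_toM
  have hs : Function.Surjective (Cov.toM m : Cov hh → CovM hh m) := Cov.surjective_toM
  exact
    { h := fun y => g (CovM.p y)
      herm := chartMap_pM.isHerm_comp hg
      β := dnM m (dbar0 0 (fun y => (D.f y : ℂ)))
      reg := by
        rw [← hq.reg1_comp_iff hs, hβ']
        exact D.f_smooth.dbar infty_add_one_le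
      closed := by
        intro y
        obtain ⟨x, rfl⟩ := hs y
        rw [← hq.dbar1_comp 0, hβ']
        exact dbar1_dbar0 ((D.f_smooth.at x).of_le H469.two_le_infty)
      c := D.c
      pos := D.c_pos
      tr := by
        intro y
        obtain ⟨x, rfl⟩ := hs y
        have h1 := hq.del1_comp (dnM m (dbar0 0 (fun y => (D.f y : ℂ)))) x
        rw [hβ'] at h1
        rw [trh, ← h1]
        have h2 := D.lap_f x
        rw [trh, hgD] at h2
        exact h2 }

end Vale.Agent.P267.H556
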