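import Vale.Agent.P267.H556.ChiNeg
import Vale.Agent.P267.H378.NF

/-!
# P267, package CHI-NEG: the identity theorem for holomorphic sections
-/

set_option linter.unusedSectionVars false

open scoped Manifold ContDiff ComplexConjugate Matrix ComplexOrder
open Set Filter Topology Metric

noncomputable section

namespace Vale.Agent.P267.H556

open Vale.Agent.P267.FL Vale.Agent.P267.RR

variable {X : Type} [TopologicalSpace X] [ChartedSpace C2 X] [IsManifold 𝓘(ℂ, C2) ω X]
variable {ι : Type} [Fintype ι] [DecidableEq ι]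

/-- In a small ball of a chart a holomorphic section is a holomorphic multiple of a frame. -/
theorem local_coef {L : LB X ι} {a : X → Fin 2 → ℂ} {κ : ℤ} (hF : H378.HasFrames L a)
    {s : X → EuclideanSpace ℂ ι} (hs : s ∈ H0 L a κ) (x : X) :
    ∃ R > 0, ball (chartAt C2 x x) R ⊆ (chartAt C2 x).target ∧
      ∃ (F : C2 → EuclideanSpace ℂ ι) (c : C2 → ℂ),
        AnalyticOnNhd ℂ c (ball (chartAt C2 x x) R) ∧
        ∀ z ∈ ball (chartAt C2 x x) R, F z ≠ 0 ∧ loc0 κ (chartAt C2 x) s z = c z • F z := by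
  obtain ⟨⟨hsr, hss⟩, hsd⟩ := (mem_H0 _ _ _).1 hs
  obtain ⟨f, hf, hfs, hf0⟩ := hF x
  set e := chartAt C2 x with he'
  have he : e ∈ atlas C2 X := chart_mem_atlas C2 x
  have hxs : x ∈ e.source := mem_chart_source C2 x
  have hxt : e x ∈ e.target := e.map_source hxs
  have hO : ∀ᶠ z in 𝓝 (e x), z ∈ e.target ∧ (f (e.symm z) ≠ 0 ∧ LB.db0 L a 0 f (e.symm z) = 0) := by
    have hcont : Tendsto e.symm (𝓝 (e x)) (𝓝 x) := by
      have h := e.continuousAt_symm hxt
      rw [ContinuousAt, e.left_inv hxs] at h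
      exact h
    have h1 : ∀ᶠ z in 𝓝 (e x), z ∈ e.target := e.open_target.mem_nhds hxt
    exact h1.and (hcont.eventually hf0)
  obtain ⟨R, hR, hRO⟩ := Metric.nhds_basis_ball.eventually_iff.1 hO
  have hRt : ball (e x) R ⊆ e.target := fun z hz => (hRO hz).1
  have hFs : ContDiffOn ℝ ∞ (loc0 0 e f) e.target := hf e he
  have hSs : ContDiffOn ℝ ∞ (loc0 κ e s) e.target := hsr e he
  have hF0 : ∀ z ∈ ball (e x) R, loc0 0 e f z ≠ 0 := by
    intro z hz
    have h1 := (hRO hz).2.1
    simpa [loc0] using h1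
  have hPF : ∀ z, LB.act (L.P (e.symm z)) (loc0 0 e f z) = loc0 0 e f z :=
    fun z => H378.sec_loc0 hfs 0 e z
  have hPS : ∀ z, LB.act (L.P (e.symm z)) (loc0 κ e s z) = loc0 κ e s z :=
    fun z => H378.sec_loc0 hss κ e z
  have hrank : ∀ z ∈ ball (e x) R, loc0 κ e s z =
      H378.coef (loc0 0 e f) (loc0 κ e s) z • loc0 0 e f z := fun z hz =>
    H378.rank_one' (L.herm _) (L.idem _) (L.tr _) (hPF z) (hF0 z hz) (hPS z)
  have hcC : ContDiffOn ℝ ∞ (H378.coef (loc0 0 e f) (loc0 κ e s)) (ball (e x) R) :=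
    H378.coef_contDiffOn (hFs.mono hRt) (hSs.mono hRt) hF0
  have hhol : DifferentiableOn ℂ (H378.coef (loc0 0 e f) (loc0 κ e s)) (ball (e x) R) := by
    intro z hz
    refine DifferentiableAt.differentiableWithinAt ?_
    have hzt := hRt hz
    have hcd : DifferentiableAt ℝ (H378.coef (loc0 0 e f) (loc0 κ e s)) z :=
      (hcC.contDiffAt (isOpen_ball.mem_nhds hz)).differentiableAt (by norm_num)
    have hFd : DifferentiableAt ℝ (loc0 0 e f) z :=
      (hFs.contDiffAt (e.open_target.mem_nhds hzt)).differentiableAt (by norm_num)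
    have hSd : DifferentiableAt ℝ (loc0 κ e s) z :=
      (hSs.contDiffAt (e.open_target.mem_nhds hzt)).differentiableAt (by norm_num)
    refine (differentiableAt_complex_iff hcd).2 fun i => ?_
    have hev : loc0 κ e s =ᶠ[𝓝 z] fun w =>
        H378.coef (loc0 0 e f) (loc0 κ e s) w • loc0 0 e f w := by
      filter_upwards [isOpen_ball.mem_nhds hz] with w hw using hrank w hw
    have hF' : LB.act (L.P (e.symm z)) (dzb i (loc0 0 e f) z) +
        loc1 0 e a z i • loc0 0 e f z = 0 := by
      rw [← H378.loc1_db0 L a he hzt hFd i]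
      simp only [loc1, (hRO hz).2.2]
      simp
    have h1 := H378.db_coef (P := L.P (e.symm z)) (A := loc1 0 e a z i) (i := i) hev hcd hFd
      (hPF z) hF'
    have h2 : LB.act (L.P (e.symm z)) (dzb i (loc0 κ e s) z) +
        loc1 0 e a z i • loc0 κ e s z = 0 := by
      rw [← H378.loc1_db0 L a he hzt hSd i]
      simp only [loc1, hsd]
      simp
    rw [h2] at h1
    exact (smul_eq_zero.1 h1.symm).resolve_right (hF0 z hz)
  refine ⟨R, hR, hRt, loc0 0 e f, H378.coef (loc0 0 e f) (loc0 κ e s), ?_, ?_⟩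
  · exact Vale.Agent.P281.MF.analyticOnNhd_of_differentiableOn isOpen_ball hhol
  · exact fun z hz => ⟨hF0 z hz, hrank z hz⟩

/-- **Identity theorem** for holomorphic sections on a connected surface. -/
theorem identStmt [PreconnectedSpace X] {L : LB X ι} {a : X → Fin 2 → ℂ} {κ : ℤ}
    (hF : H378.HasFrames L a) : IdentStmt L a κ := by
  intro s hs U hU hUne hU0
  set A : Set X := {x | ∀ᶠ y in 𝓝 x, s y = 0} with hA
  have hAo : IsOpen A := by
    rw [isOpen_iff_mem_nhds]
    intro x hx
    exact eventually_eventually_nhds.2 hx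
  have hAc : IsClosed A := by
    rw [← closure_subset_iff_isClosed]
    intro x hx
    obtain ⟨R, hR, hRt, F, c, hc, hloc⟩ := local_coef hF hs x
    set e := chartAt C2 x with he'
    have he : e ∈ atlas C2 X := chart_mem_atlas C2 x
    have hxs : x ∈ e.source := mem_chart_source C2 x
    set V : Set X := e.source ∩ e ⁻¹' ball (e x) R with hV
    have hVo : IsOpen V := e.isOpen_inter_preimage isOpen_ball
    have hxV : x ∈ V := ⟨hxs, mem_ball_self hR⟩
    obtain ⟨y, hyV, hyA⟩ := mem_closure_iff.1 hx V hVo hxV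
    have hey : e y ∈ ball (e x) R := hyV.2
    have hcy : ∀ᶠ z in 𝓝 (e y), c z = 0 := by
      have h1 : Tendsto e.symm (𝓝 (e y)) (𝓝 y) := by
        have h := e.continuousAt_symm (e.map_source hyV.1)
        rw [ContinuousAt, e.left_inv hyV.1] at h
        exact h
      have h2 : ∀ᶠ z in 𝓝 (e y), s (e.symm z) = 0 := h1.eventually hyA
      filter_upwards [h2, isOpen_ball.mem_nhds hey] with z hz hzb
      obtain ⟨h3, h4⟩ := hloc z hzb
      have h5 : loc0 κ e s z = 0 := by rw [loc0, hz, smul_zero]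
      rw [h5] at h4
      exact (smul_eq_zero.1 h4.symm).resolve_right h3
    have hc0 : EqOn c 0 (ball (e x) R) :=
      hc.eqOn_zero_of_preconnected_of_eventuallyEq_zero
        (convex_ball (e x) R).isPreconnected hey hcy
    filter_upwards [hVo.mem_nhds hxV] with w hw
    have h1 : loc0 κ e s (e w) = 0 := by
      rw [(hloc (e w) hw.2).2, hc0 hw.2]
      simp
    rw [loc0_source hw.1] at h1
    have h2 : (jac e w).det ^ κ ≠ 0 := zpow_ne_zero _ (jac_det_ne_zero he hw.1)
    exact (smul_eq_zero.1 h1).resolve_left h2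
  have hAne : A.Nonempty := by
    obtain ⟨x, hx⟩ := hUne
    refine ⟨x, ?_⟩
    filter_upwards [hU.mem_nhds hx] with y hy using hU0 y hy
  have hAu : A = univ := (isClopen_iff.1 ⟨hAc, hAo⟩).resolve_left hAne.ne_empty
  funext x
  have hx : x ∈ A := hAu ▸ mem_univ x
  exact hx.self_of_nhds

end Vale.Agent.P267.H556
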