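import Vale.Agent.P267.H556.Closed
import Vale.Agent.P267.H206.Log
import Vale.Agent.P267.H469.Del2

/-!
# P267, package CHI-NEG: `S₀ ≠ ℂ` (maximum principle)
-/

set_option linter.unusedSectionVars false

open scoped Manifold ContDiff ComplexConjugate Matrix ComplexOrder
open Set Filter Topology Metric

noncomputable section

namespace Vale.Agent.P267.H556

open Vale.Agent.P267.FL Vale.Agent.P267.RR Vale.Agent.P267.XT

/-! ### the complex Hessian of `log |g|²` -/

section model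

theorem dzb_comp_hol {f : ℂ → ℂ} {f' : ℂ} {g : C2 → ℂ} {w : C2} (hf : HasDerivAt f f' (g w))
    (hg : DifferentiableAt ℝ g w) (j : Fin 2) :
    dzb j (fun y => f (g y)) w = f' * dzb j g w := by
  have h1 : HasFDerivAt (fun y => f (g y))
      (((ContinuousLinearMap.smulRight (1 : ℂ →L[ℂ] ℂ) f').restrictScalars ℝ).comp
        (fderiv ℝ g w)) w :=
    (hf.hasFDerivAt.restrictScalars ℝ).comp w hg.hasFDerivAt
  unfold dzb
  rw [h1.fderiv]
  simp only [ContinuousLinearMap.comp_apply, ContinuousLinearMap.coe_restrictScalars',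
    ContinuousLinearMap.smulRight_apply, one_apply_eq_self, smul_eq_mul]
  ring

theorem dzb_log {g : C2 → ℂ} {w : C2} {c : ℂ} (hc : c ≠ 0) (hg : DifferentiableAt ℝ g w)
    (hs : g w / c ∈ Complex.slitPlane) (j : Fin 2) :
    dzb j (fun y => Complex.log (g y / c)) w = dzb j g w / g w := by
  have hw : g w ≠ 0 := by
    intro h
    rw [h, zero_div] at hs
    exact Complex.zero_notMem_slitPlane hs
  have h1 : HasDerivAt (fun t : ℂ => Complex.log (t / c)) ((g w)⁻¹) (g w) := by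
    have h2 : HasDerivAt (fun t : ℂ => t / c) (1 / c) (g w) := (hasDerivAt_id (g w)).div_const c
    have h3 := h2.clog hs
    convert h3 using 1
    field_simp
  rw [dzb_comp_hol h1 hg j, div_eq_inv_mul]

/-- `∂_i ∂̄_j log |g|² = -ζ ∂_i b_j - conj (ζ ∂_j b_i)` if `∂̄ g = -ζ b g` -/
theorem hessE_log_twist {g : C2 → ℂ} {z : C2} {ζ : ℂ} {b : C2 → Fin 2 → ℂ}
    (hg : ContDiffAt ℝ 2 g z) (hz : g z ≠ 0) (hb : ∀ j, DifferentiableAt ℝ (fun w => b w j) z)
    (hd : ∀ᶠ w in 𝓝 z, ∀ j, dzb j g w = -(ζ * b w j) * g w) (i j : Fin 2) :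
    H206.hessE (fun w => Real.log (‖g w‖ ^ 2)) z i j =
      -(ζ * dz i (fun w => b w j) z) - conj (ζ * dz j (fun w => b w i) z) := by
  have hc : ContinuousAt g z := hg.continuousAt
  set Λ : C2 → ℂ := fun w => Complex.log (g w / g z) with hΛ
  have hslit : ∀ᶠ w in 𝓝 z, g w / g z ∈ Complex.slitPlane := by
    have h2 : ContinuousAt (fun w => g w / g z) z := hc.div_const _
    refine h2.eventually_mem (Complex.isOpen_slitPlane.mem_nhds ?_)
    rw [div_self hz]
    exact Complex.one_mem_slitPlane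
  have hΛ2 : ContDiffAt ℝ 2 Λ z := by
    have h1 : ContDiffAt ℝ 2 (fun w => g w / g z) z := hg.div_const _
    have h2 : ContDiffAt ℝ 2 Complex.log (g z / g z) :=
      (Complex.contDiffAt_log (by rw [div_self hz]; exact Complex.one_mem_slitPlane)).restrict_scalars ℝ
    exact h2.comp z h1
  have hdiff : ∀ᶠ w in 𝓝 z, DifferentiableAt ℝ g w :=
    (hg.eventually (by simp)).mono fun w hw => hw.differentiableAt (by norm_num)
  have hdΛ : ∀ᶠ w in 𝓝 z, ∀ j, dzb j Λ w = -(ζ * b w j) := by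
    filter_upwards [hslit, hd, hdiff, hc.eventually_ne hz] with w h1 h2 h3 h4 j
    rw [hΛ, dzb_log hz h3 h1 j, h2 j, mul_div_assoc, div_self h4, mul_one]
  have hΛd : ∀ᶠ w in 𝓝 z, DifferentiableAt ℝ Λ w :=
    (hΛ2.eventually (by simp)).mono fun w hw => hw.differentiableAt (by norm_num)
  -- `u = c + Λ + conj Λ`
  have hu : (fun w => ((Real.log (‖g w‖ ^ 2) : ℝ) : ℂ)) =ᶠ[𝓝 z]
      fun w => ((Real.log (‖g z‖ ^ 2) : ℝ) : ℂ) + (Λ w + conj (Λ w)) := by
    filter_upwards [hc.eventually_ne hz] with w hw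
    rw [H206.log_normSq_eq hz hw, Complex.ofReal_add]
    congr 1
    rw [hΛ, Complex.add_conj]
  have hev : ∀ᶠ w in 𝓝 z, ∀ j, dzb j (fun w' => ((Real.log (‖g w'‖ ^ 2) : ℝ) : ℂ)) w =
      dzb j Λ w + conj (dz j Λ w) := by
    filter_upwards [hu.eventuallyEq_nhds, hΛd] with w h1 h2 j
    rw [dzb_congr h1 j, FL.dzb_add (differentiableAt_const _)
      (h2.fun_add (differentiableAt_conj h2)), dzb_const, zero_add,
      FL.dzb_add h2 (differentiableAt_conj h2), dzb_conj h2]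
  have hdz1 : ∀ j, DifferentiableAt ℝ (fun w => dz j Λ w) z := fun j =>
    (contDiffAt_dz (m := 1) (n := 2) hΛ2 (by norm_num) j).differentiableAt (by norm_num)
  have hdz2 : ∀ j, DifferentiableAt ℝ (fun w => dzb j Λ w) z := fun j =>
    (contDiffAt_dzb (m := 1) (n := 2) hΛ2 (by norm_num) j).differentiableAt (by norm_num)
  have h1 : H206.hessE (fun w => Real.log (‖g w‖ ^ 2)) z i j =
      dz i (fun w => dzb j Λ w + conj (dz j Λ w)) z := by
    unfold H206.hessE
    rw [Matrix.of_apply]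
    exact dz_congr (hev.mono fun w hw => hw j) i
  have h2 : ∀ i j, dz i (fun w => dzb j Λ w) z = -(ζ * dz i (fun w => b w j) z) := by
    intro i j
    rw [dz_congr (hdΛ.mono fun w hw => hw j) i, dz_neg]
    congr 1
    exact dz_const_smul ζ (hb j) i
  rw [h1, dz_add (hdz2 j) (differentiableAt_conj (hdz1 j)), dz_conj (hdz1 j), h2,
    ← dz_dzb_comm hΛ2, h2, map_neg]
  ring

/-- the trace of the complex Hessian of `log |g|²` -/
theorem lapE_log_twist {H : Matrix (Fin 2) (Fin 2) ℂ} (hH : H.PosDef) {g : C2 → ℂ} {z : C2} {ζ : ℂ}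
    {b : C2 → Fin 2 → ℂ} (hg : ContDiffAt ℝ 2 g z) (hz : g z ≠ 0)
    (hb : ∀ j, DifferentiableAt ℝ (fun w => b w j) z)
    (hd : ∀ᶠ w in 𝓝 z, ∀ j, dzb j g w = -(ζ * b w j) * g w) {c : ℝ}
    (hc : (H⁻¹ * Matrix.of fun i j => dz i (fun w => b w j) z).trace = (c : ℂ)) :
    H206.lapE H (fun w => Real.log (‖g w‖ ^ 2)) z = -(2 * c * ζ.re) := by
  set M : Matrix (Fin 2) (Fin 2) ℂ := Matrix.of fun i j => dz i (fun w => b w j) z with hM
  have h1 : H206.hessE (fun w => Real.log (‖g w‖ ^ 2)) z = -(ζ • M) - (ζ • M)ᴴ := by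
    ext i j
    rw [hessE_log_twist hg hz hb hd i j]
    rfl
  have hHh : (H⁻¹)ᴴ = H⁻¹ := hH.inv.isHermitian
  have h2 : (H⁻¹ * (ζ • M)ᴴ).trace = conj (ζ * (c : ℂ)) := by
    have h3 : H⁻¹ * (ζ • M)ᴴ = ((ζ • M) * H⁻¹)ᴴ := by
      rw [Matrix.conjTranspose_mul, hHh]
    rw [h3, Matrix.trace_conjTranspose, Matrix.smul_mul, Matrix.trace_smul, Matrix.trace_mul_comm,
      hc, smul_eq_mul]
    rfl
  unfold H206.lapE
  rw [h1, mul_sub, mul_neg, Matrix.mul_smul, Matrix.trace_sub, Matrix.trace_neg,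
    Matrix.trace_smul, hc, h2, smul_eq_mul]
  simp
  ring

end model

/-! ### invariance of the trace -/

theorem trace_change {J H G : Matrix (Fin 2) (Fin 2) ℂ} (hJ : J.det ≠ 0) :
    ((Jᵀ * H * J.map conj)⁻¹ * (Jᵀ * G * J.map conj)).trace = (H⁻¹ * G).trace := by
  set K : Matrix (Fin 2) (Fin 2) ℂ := J.map conj with hK
  have hu : IsUnit Jᵀ.det := by rw [Matrix.det_transpose]; exact isUnit_iff_ne_zero.2 hJ
  have hKu : IsUnit K.det := by
    have : K.det = conj J.det := by rw [hK, RingHom.map_det]; rfl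
    rw [this]
    exact isUnit_iff_ne_zero.2 ((map_ne_zero _).2 hJ)
  have h1 : (Jᵀ * H * K)⁻¹ * (Jᵀ * G * K) = K⁻¹ * (H⁻¹ * G * K) := by
    rw [Matrix.mul_inv_rev, Matrix.mul_inv_rev]
    calc K⁻¹ * (H⁻¹ * (Jᵀ)⁻¹) * (Jᵀ * G * K)
        = K⁻¹ * (H⁻¹ * (((Jᵀ)⁻¹ * Jᵀ) * G) * K) := by simp only [Matrix.mul_assoc]
      _ = K⁻¹ * (H⁻¹ * G * K) := by rw [Matrix.nonsing_inv_mul _ hu, Matrix.one_mul]
  rw [h1, Matrix.trace_mul_comm, Matrix.mul_assoc, Matrix.mul_nonsing_inv _ hKu, Matrix.mul_one]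

variable {X : Type} [TopologicalSpace X] [ChartedSpace C2 X] [IsManifold 𝓘(ℂ, C2) ω X]
variable {ι : Type} [Fintype ι] [DecidableEq ι]
variable {h : X → Matrix (Fin 2) (Fin 2) ℂ}

theorem trh_chart (g : X → Matrix (Fin 2) (Fin 2) ℂ) {e : Ch X} (he : e ∈ atlas C2 X) {z : C2}
    (hz : z ∈ e.target) :
    ((loc11 e h z)⁻¹ * loc11 e g z).trace = trh h g (e.symm z) := by
  have hx := e.map_target hz
  have h1 := H87.loc11_source hx h
  have h2 := H87.loc11_source hx g
  rw [e.right_inv hz] at h1 h2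
  rw [h1, h2, trace_change (jac_det_ne_zero he hx)]
  rfl

theorem trh_del1_chart {β : X → Fin 2 → ℂ} (hβ : Reg1 ∞ 0 β) {e : Ch X} (he : e ∈ atlas C2 X)
    {z : C2} (hz : z ∈ e.target) :
    ((loc11 e h z)⁻¹ * Matrix.of fun i j => dz i (fun w => loc1 0 e β w j) z).trace =
      trh h (del1 β) (e.symm z) := by
  rw [← trh_chart (del1 β) he hz]
  congr 2
  ext i j
  rw [Matrix.of_apply, H469.del1_law (H469.r1mono hβ H469.one_le_infty) he hz]

/-! ### the maximum principle -/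

/-- at a maximum point near `x₀` of the norm of a section of `(L, a + ζ β)`, the real part of `ζ` is
bounded from below -/
theorem local_bound (hh : IsHerm h) {L : LB X ι} {a β : X → Fin 2 → ℂ} {κ : ℤ}
    (hβ : Reg1 ∞ 0 β) {c : ℝ} (hc : ∀ x, trh h (del1 β) x = (c : ℂ))
    (hf : H378.HasFrames L a) (x0 : X) :
    ∃ U ∈ 𝓝 x0, ∃ B : ℝ, ∀ (ζ : ℂ), ∀ s ∈ H0 L (a + ζ • β) κ, ∀ x ∈ U, s x ≠ 0 →
      (∀ y, n0 h κ s y ≤ n0 h κ s x) → B ≤ 2 * c * ζ.re := by
  obtain ⟨f, hf, hfs, hf0⟩ := hf x0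
  set e := chartAt C2 x0 with he'
  have he : e ∈ atlas C2 X := chart_mem_atlas C2 x0
  have hxs : x0 ∈ e.source := mem_chart_source C2 x0
  have hxt : e x0 ∈ e.target := e.map_source hxs
  have hO : ∀ᶠ z in 𝓝 (e x0), z ∈ e.target ∧
      (f (e.symm z) ≠ 0 ∧ LB.db0 L a 0 f (e.symm z) = 0) := by
    have hcont : Tendsto e.symm (𝓝 (e x0)) (𝓝 x0) := by
      have h := e.continuousAt_symm hxt
      rw [ContinuousAt, e.left_inv hxs] at h
      exact h
    have h1 : ∀ᶠ z in 𝓝 (e x0), z ∈ e.target := e.open_target.mem_nhds hxt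
    exact h1.and (hcont.eventually hf0)
  obtain ⟨R, hR, hRO⟩ := Metric.nhds_basis_ball.eventually_iff.1 hO
  have hRt : ball (e x0) R ⊆ e.target := fun z hz => (hRO hz).1
  have hFs : ContDiffOn ℝ ∞ (loc0 0 e f) e.target := hf e he
  have hF0 : ∀ z ∈ ball (e x0) R, loc0 0 e f z ≠ 0 := by
    intro z hz
    have h1 := (hRO hz).2.1
    simpa [loc0] using h1
  have hPF : ∀ z, LB.act (L.P (e.symm z)) (loc0 0 e f z) = loc0 0 e f z :=
    fun z => H378.sec_loc0 hfs 0 e z
  -- the potential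
  set ψ : C2 → ℝ := fun z => Real.log (‖loc0 0 e f z‖ ^ 2) -
    κ * Real.log ((loc11 e h z).det.re) with hψ
  have hdet : ContDiffOn ℝ ∞ (fun z => (loc11 e h z).det.re) e.target := by
    have h1 : ContDiffOn ℝ ∞ (fun z => (loc11 e h z).det) e.target := by
      have h2 : (fun z => (loc11 e h z).det) = fun z =>
          loc11 e h z 0 0 * loc11 e h z 1 1 - loc11 e h z 0 1 * loc11 e h z 1 0 := by
        funext z
        rw [Matrix.det_fin_two]
      rw [h2]
      exact ((hh.smooth e he 0 0).mul (hh.smooth e he 1 1)).sub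
        ((hh.smooth e he 0 1).mul (hh.smooth e he 1 0))
    exact Complex.reCLM.contDiff.comp_contDiffOn h1
  have hψs : ContDiffOn ℝ ∞ ψ (ball (e x0) R) := by
    refine ContDiffOn.sub ?_ ?_
    · refine ContDiffOn.log ((hFs.mono hRt).norm_sq ℝ) fun z hz => ?_
      exact pow_ne_zero 2 (norm_ne_zero_iff.2 (hF0 z hz))
    · refine contDiffOn_const.mul (ContDiffOn.log (hdet.mono hRt) fun z hz => ?_)
      exact (det_loc11_pos hh he (hRt hz)).ne'
  -- continuity of the trace of the complex Hessian of the potential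
  have hcont : ContinuousOn (fun z => H206.lapE (loc11 e h z) ψ z) (ball (e x0) R) := by
    have hψc : ContDiffOn ℝ ∞ (fun z => ((ψ z : ℝ) : ℂ)) (ball (e x0) R) :=
      Complex.ofRealCLM.contDiff.comp_contDiffOn hψs
    have h1 : ∀ i j, ContinuousOn (fun z => H206.hessE ψ z i j) (ball (e x0) R) := by
      intro i j
      have h2 : ContDiffOn ℝ ∞ (fun z => dzb j (fun w => ((ψ w : ℝ) : ℂ)) z) (ball (e x0) R) :=
        contDiffOn_dzb isOpen_ball hψc H469.infty_add_one j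
      have h3 : ContDiffOn ℝ ∞ (fun z => dz i (fun w => dzb j (fun w' => ((ψ w' : ℝ) : ℂ)) w) z)
          (ball (e x0) R) := contDiffOn_dz isOpen_ball h2 H469.infty_add_one i
      exact h3.continuousOn
    have h4 : ∀ i j, ContinuousOn (fun z => (loc11 e h z)⁻¹ i j) (ball (e x0) R) := by
      intro i j
      have h5 : ContinuousOn (fun z => (loc11 e h z)) (ball (e x0) R) :=
        (continuousOn_loc11 hh he).mono hRt
      have h6 : ContinuousOn (fun z => (loc11 e h z).det) (ball (e x0) R) :=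
        (Continuous.matrix_det continuous_id).comp_continuousOn h5
      have h7 : ContinuousOn (fun z => (loc11 e h z).adjugate) (ball (e x0) R) :=
        (Continuous.matrix_adjugate continuous_id).comp_continuousOn h5
      simp only [H87.inv_entry]
      refine (h6.inv₀ fun z hz => ?_).mul (continuousOn_pi.1 (continuousOn_pi.1 h7 i) j)
      intro h0
      have := det_loc11_pos hh he (hRt hz)
      rw [h0] at this
      simp at this
    unfold H206.lapE
    refine Complex.continuous_re.comp_continuousOn ?_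
    simp only [Matrix.trace, Matrix.diag, Matrix.mul_apply, Fin.sum_univ_two]
    exact (((h4 0 0).mul (h1 0 0)).add ((h4 0 1).mul (h1 1 0))).add
      (((h4 1 0).mul (h1 0 1)).add ((h4 1 1).mul (h1 1 1)))
  have hK : closedBall (e x0) (R / 2) ⊆ ball (e x0) R := closedBall_subset_ball (by linarith)
  obtain ⟨B, hB⟩ := (isCompact_closedBall (e x0) (R / 2)).exists_bound_of_continuousOn
    (hcont.mono hK)
  refine ⟨e.source ∩ e ⁻¹' ball (e x0) (R / 2), (e.isOpen_inter_preimage isOpen_ball).mem_nhds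
    ⟨hxs, mem_ball_self (by positivity)⟩, -B, ?_⟩
  intro ζ s hs x hx hsx hmax
  obtain ⟨⟨hsr, hss⟩, hsd⟩ := (mem_H0 _ _ _).1 hs
  have hSs : ContDiffOn ℝ ∞ (loc0 κ e s) e.target := hsr e he
  have hPS : ∀ z, LB.act (L.P (e.symm z)) (loc0 κ e s z) = loc0 κ e s z :=
    fun z => H378.sec_loc0 hss κ e z
  set g : C2 → ℂ := H378.coef (loc0 0 e f) (loc0 κ e s) with hg
  have hrank : ∀ z ∈ ball (e x0) R, loc0 κ e s z = g z • loc0 0 e f z := fun z hz =>
    H378.rank_one' (L.herm _) (L.idem _) (L.tr _) (hPF z) (hF0 z hz) (hPS z)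
  have hcC : ContDiffOn ℝ ∞ g (ball (e x0) R) :=
    H378.coef_contDiffOn (hFs.mono hRt) (hSs.mono hRt) hF0
  have hexb' : e x ∈ ball (e x0) (R / 2) := hx.2
  have hexb : e x ∈ ball (e x0) R := hK (ball_subset_closedBall hexb')
  have hext : e x ∈ e.target := hRt hexb
  have hgx : g (e x) ≠ 0 := by
    intro h0
    have h1 := hrank (e x) hexb
    rw [h0, zero_smul, loc0_source hx.1] at h1
    exact hsx ((smul_eq_zero.1 h1).resolve_left (zpow_ne_zero _ (jac_det_ne_zero he hx.1)))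
  have hgdb : ∀ z ∈ ball (e x0) R, ∀ i, dzb i g z = -(ζ * loc1 0 e β z i) * g z := by
    intro z hz i
    have hzt := hRt hz
    have hcd : DifferentiableAt ℝ g z :=
      (hcC.contDiffAt (isOpen_ball.mem_nhds hz)).differentiableAt (by norm_num)
    have hFd : DifferentiableAt ℝ (loc0 0 e f) z :=
      (hFs.contDiffAt (e.open_target.mem_nhds hzt)).differentiableAt (by norm_num)
    have hSd : DifferentiableAt ℝ (loc0 κ e s) z :=
      (hSs.contDiffAt (e.open_target.mem_nhds hzt)).differentiableAt (by norm_num)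
    have hev : loc0 κ e s =ᶠ[𝓝 z] fun w => g w • loc0 0 e f w := by
      filter_upwards [isOpen_ball.mem_nhds hz] with w hw using hrank w hw
    have hF' : LB.act (L.P (e.symm z)) (dzb i (loc0 0 e f) z) +
        loc1 0 e a z i • loc0 0 e f z = 0 := by
      rw [← H378.loc1_db0 L a he hzt hFd i]
      simp only [loc1, (hRO hz).2.2]
      simp
    have h1 := H378.db_coef (P := L.P (e.symm z)) (A := loc1 0 e a z i) (i := i) hev hcd hFd
      (hPF z) hF'
    have h2 : LB.act (L.P (e.symm z)) (dzb i (loc0 κ e s) z) +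
        loc1 0 e (a + ζ • β) z i • loc0 κ e s z = 0 := by
      rw [← H378.loc1_db0 L (a + ζ • β) he hzt hSd i]
      simp only [loc1, hsd]
      simp
    rw [RR.loc1_add, RR.loc1_smul, add_smul, ← add_assoc, h1, hrank z hz, smul_smul,
      ← add_smul] at h2
    have h3 := (smul_eq_zero.1 h2).resolve_right (hF0 z hz)
    rw [smul_eq_mul] at h3
    linear_combination h3
  -- local maximum
  have hlm : IsLocalMax (fun z => Real.log (‖g z‖ ^ 2) + ψ z) (e x) := by
    have hval : ∀ z ∈ ball (e x0) R, g z ≠ 0 →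
        Real.log (‖g z‖ ^ 2) + ψ z = 2 * Real.log (n0 h κ s (e.symm z)) := by
      intro z hz hgz
      have hzt := hRt hz
      have hd0 := det_loc11_pos hh he hzt
      have h1 := H87.n0_chart hh.posDef κ s he (e.map_target hzt)
      rw [e.right_inv hzt, H87.N0, hrank z hz, norm_smul] at h1
      rw [h1, Real.log_mul (mul_ne_zero (norm_ne_zero_iff.2 hgz) (norm_ne_zero_iff.2 (hF0 z hz)))
        (Real.rpow_pos_of_pos hd0 _).ne', Real.log_mul (norm_ne_zero_iff.2 hgz)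
        (norm_ne_zero_iff.2 (hF0 z hz)), Real.log_rpow hd0, hψ]
      simp only [Real.log_pow]
      push_cast
      ring
    have hne : ∀ᶠ z in 𝓝 (e x), g z ≠ 0 :=
      (hcC.contDiffAt (isOpen_ball.mem_nhds hexb)).continuousAt.eventually_ne hgx
    filter_upwards [hne, isOpen_ball.mem_nhds hexb] with z hz1 hz2
    rw [hval z hz2 hz1, hval (e x) hexb hgx, e.left_inv hx.1]
    have hp : 0 < n0 h κ s (e.symm z) := by
      rw [n0_pos_iff hh]
      intro h0
      have h1 := hrank z hz2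
      rw [loc0, h0, smul_zero] at h1
      exact (smul_ne_zero hz1 (hF0 z hz2)) h1.symm
    have := Real.log_le_log hp (hmax (e.symm z))
    linarith
  have hψ2 : ContDiffAt ℝ 2 ψ (e x) :=
    (hψs.contDiffAt (isOpen_ball.mem_nhds hexb)).of_le H469.two_le_infty
  have hg2 : ContDiffAt ℝ 2 g (e x) :=
    (hcC.contDiffAt (isOpen_ball.mem_nhds hexb)).of_le H469.two_le_infty
  have hlog2 : ContDiffAt ℝ 2 (fun z => Real.log (‖g z‖ ^ 2)) (e x) :=
    ContDiffAt.log (hg2.norm_sq ℝ) (pow_ne_zero 2 (norm_ne_zero_iff.2 hgx))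
  have hpd : (loc11 e h (e x)).PosDef := H87.loc11_posDef hh.posDef he hx.1
  have h1 : H206.lapE (loc11 e h (e x)) (fun z => Real.log (‖g z‖ ^ 2) + ψ z) (e x) ≤ 0 :=
    H206.lapE_nonpos hpd (hlog2.add hψ2) hlm
  rw [H206.lapE_add _ hlog2 hψ2] at h1
  have hβd : ∀ j, DifferentiableAt ℝ (fun w => loc1 0 e β w j) (e x) := fun j =>
    ((contDiffAt_pi.1 (hβ.contDiffAt he hext)) j).differentiableAt (by norm_num)
  have h2 := lapE_log_twist (ζ := ζ) (b := loc1 0 e β) (c := c) hpd hg2 hgx hβd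
    (by filter_upwards [isOpen_ball.mem_nhds hexb] with w hw using hgdb w hw)
    (by rw [trh_del1_chart hβ he hext, hc])
  rw [h2] at h1
  have h3 := hB (e x) (ball_subset_closedBall hexb')
  rw [Real.norm_eq_abs, abs_le] at h3
  linarith [h3.1]

/-- **`S₀ ≠ ℂ`**: no sections of `(L, a + ζ β)` if the real part of `ζ` is very negative. -/
theorem exists_notMem_S0 [CompactSpace X] (hh : IsHerm h) {L : LB X ι} {a β : X → Fin 2 → ℂ}
    {κ : ℤ} (hβ : Reg1 ∞ 0 β) {c : ℝ} (hc0 : 0 < c) (hc : ∀ x, trh h (del1 β) x = (c : ℂ))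
    (hf : H378.HasFrames L a) : ∃ z, z ∉ S0 L a β κ := by
  obtain ⟨B, hB⟩ := isCompact_univ.induction_on (s := (univ : Set X))
    (p := fun S => ∃ B : ℝ, ∀ (ζ : ℂ), ∀ s ∈ H0 L (a + ζ • β) κ, ∀ x ∈ S, s x ≠ 0 →
      (∀ y, n0 h κ s y ≤ n0 h κ s x) → B ≤ 2 * c * ζ.re)
    ⟨0, fun ζ s _ x hx => absurd hx (notMem_empty x)⟩
    (fun S T hST ⟨B, hB⟩ => ⟨B, fun ζ s hs x hx => hB ζ s hs x (hST hx)⟩)
    (fun S T ⟨B, hB⟩ ⟨B', hB'⟩ => ⟨min B B', fun ζ s hs x hx hx0 hm => by
      rcases hx with hx | hx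
      · exact (min_le_left _ _).trans (hB ζ s hs x hx hx0 hm)
      · exact (min_le_right _ _).trans (hB' ζ s hs x hx hx0 hm)⟩)
    (fun x _ => by
      obtain ⟨U, hU, B, hB⟩ := local_bound (κ := κ) hh hβ hc hf x
      exact ⟨U, mem_nhdsWithin_of_mem_nhds hU, B, hB⟩)
  refine ⟨(((B - 1) / (2 * c) : ℝ) : ℂ), fun hz => ?_⟩
  obtain ⟨s, hs, hs0⟩ := Submodule.exists_mem_ne_zero_of_ne_bot hz
  obtain ⟨x, hx, hmax⟩ := exists_max hh ((mem_H0 _ _ _).1 hs).1.1 hs0
  have h1 := hB _ s hs x (mem_univ x) hx hmax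
  rw [Complex.ofReal_re] at h1
  have h2 : 2 * c * ((B - 1) / (2 * c)) = B - 1 := by field_simp
  linarith

end Vale.Agent.P267.H556
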