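import Vale.Agent.P267.H556.Max
import Vale.Agent.P267.H181.Frm
import Vale.Agent.P267.H877.Dual
import Vale.Agent.P267.H283.BlockC

/-!
# P267, package CHI-NEG: `χ(L) ≤ 0` on a surface with a positive twist; the field `rr` of `SurfIn`
-/

set_option linter.unusedSectionVars false

open scoped Manifold ContDiff ComplexConjugate Matrix ComplexOrder
open Set Filter Topology Metric

noncomputable section

namespace Vale.Agent.P267.H556

open Vale.Agent.P267.FL Vale.Agent.P267.RR Vale.Agent.P267.XT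

variable {X : Type} [TopologicalSpace X] [ChartedSpace C2 X] [IsManifold 𝓘(ℂ, C2) ω X]
variable {ι : Type} [Fintype ι] [DecidableEq ι]

/-- A Hermitian metric `h` and a `∂̄`-closed smooth `(0,1)`-form `β` with `tr_h ∂β = c > 0`
(locally `β = ∂̄f`, `tr_h ∂∂̄f = c`). -/
structure TwistData (X : Type) [TopologicalSpace X] [ChartedSpace C2 X] where
  h : X → Matrix (Fin 2) (Fin 2) ℂ
  herm : IsHerm h
  β : X → Fin 2 → ℂ
  reg : Reg1 ∞ 0 β
  closed : ∀ x, dbar1 0 β x = 0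
  c : ℝ
  pos : 0 < c
  tr : ∀ x, trh h (del1 β) x = (c : ℂ)

namespace TwistData

variable (T : TwistData X)

theorem isHol_add {L : LB X ι} {a : X → Fin 2 → ℂ} (ha : L.IsHol a) (z : ℂ) :
    L.IsHol (a + z • T.β) where
  smooth := RR.Reg1.add ha.smooth (RR.Reg1.smul z T.reg)
  integrable x := by
    have h1 : dbar1 0 (a + z • T.β) = dbar1 0 a + z • dbar1 0 T.β := by
      rw [RR.dbar1_add ha.smooth (RR.Reg1.smul z T.reg), RR.dbar1_smul z T.reg]
    rw [h1, Pi.add_apply, Pi.smul_apply, T.closed x, smul_zero, add_zero]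
    exact ha.integrable x

theorem isClosed_S0 [CompactSpace X] [T2Space X] {L : LB X ι} {a : X → Fin 2 → ℂ}
    (ha : L.IsHol a) (κ : ℤ) : IsClosed (S0 L a T.β κ) :=
  H556.isClosed_S0 T.herm T.reg fun z => H181.hasFrames (T.isHol_add ha z)

theorem exists_notMem_S0 [CompactSpace X] [T2Space X] {L : LB X ι} {a : X → Fin 2 → ℂ}
    (ha : L.IsHol a) (κ : ℤ) : ∃ z, z ∉ S0 L a T.β κ :=
  H556.exists_notMem_S0 T.herm T.reg T.pos T.tr (H181.hasFrames ha)

theorem S2_eq (L : LB X ι) (a : X → Fin 2 → ℂ) (κ : ℤ) :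
    S2 L a T.β κ = (fun z : ℂ => -z) ⁻¹' S0 L.dual (-a) T.β (1 - κ) := by
  ext z
  simp only [S2, S0, mem_preimage, mem_ofPred_eq]
  have : -(a + z • T.β) = -a + (-z) • T.β := by
    rw [neg_add, neg_smul]
  rw [this]

theorem isClosed_S2 [CompactSpace X] [T2Space X] {L : LB X ι} {a : X → Fin 2 → ℂ}
    (ha : L.IsHol a) (κ : ℤ) : IsClosed (S2 L a T.β κ) := by
  rw [T.S2_eq]
  exact (T.isClosed_S0 (isHol_dual ha) (1 - κ)).preimage continuous_neg

theorem exists_notMem_S2 [CompactSpace X] [T2Space X] {L : LB X ι} {a : X → Fin 2 → ℂ}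
    (ha : L.IsHol a) (κ : ℤ) : ∃ z, z ∉ S2 L a T.β κ := by
  obtain ⟨z, hz⟩ := T.exists_notMem_S0 (isHol_dual ha) (1 - κ)
  refine ⟨-z, ?_⟩
  rw [T.S2_eq, mem_preimage, neg_neg]
  exact hz

/-- **Generic vanishing**: some twist of `(L, a)` has neither sections nor dual sections. -/
theorem exists_twist [CompactSpace X] [T2Space X] [ConnectedSpace X] {L : LB X ι}
    {a : X → Fin 2 → ℂ} (hpg : ∀ u : X → ℂ, Reg0 ∞ 1 u → dbar0 1 u = 0 → u = 0)
    (ha : L.IsHol a) (κ : ℤ) :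
    ∃ z : ℂ, L.IsHol (a + z • T.β) ∧ H0 L (a + z • T.β) κ = ⊥ ∧
      H0 L.dual (-(a + z • T.β)) (1 - κ) = ⊥ := by
  obtain ⟨z, h1, h2⟩ := H556.exists_twist (κ := κ) hpg
    (fun z => identStmt (H181.hasFrames (isHol_dual (T.isHol_add ha z))))
    (T.isClosed_S0 ha κ) (T.isClosed_S2 ha κ) (T.exists_notMem_S0 ha κ) (T.exists_notMem_S2 ha κ)
  exact ⟨z, T.isHol_add ha z, h1, h2⟩

/-- **`χ ≤ 0` for some twist.** -/
theorem exists_chi_nonpos [CompactSpace X] [T2Space X] [ConnectedSpace X] {L : LB X ι}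
    {a : X → Fin 2 → ℂ} (hSerre : SerreStmt X)
    (hpg : ∀ u : X → ℂ, Reg0 ∞ 1 u → dbar0 1 u = 0 → u = 0) (ha : L.IsHol a) (κ : ℤ) :
    ∃ z : ℂ, L.IsHol (a + z • T.β) ∧ chi L (a + z • T.β) κ ≤ 0 := by
  obtain ⟨z, hz, h0, h2⟩ := T.exists_twist hpg ha κ
  refine ⟨z, hz, ?_⟩
  have e0 : RR.h0 L (a + z • T.β) κ = 0 := by
    rw [RR.h0, h0]; exact finrank_bot ℂ _
  have e2 : RR.h2 L (a + z • T.β) κ = 0 := by
    rw [(hSerre ι L (a + z • T.β) hz κ).2.2, RR.h0, h2]; exact finrank_bot ℂ _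
  rw [chi, e0, e2]
  simp

end TwistData

theorem wedge_comm {X : Type*} (F G : TwoF X) : F.wedge G = G.wedge F := by
  funext x
  simp only [TwoF.wedge]
  ring

theorem isec_comm {ι' : Type} [Fintype ι'] [DecidableEq ι'] (L : LB X ι) (M : LB X ι') :
    isec L M = isec M L := by
  rw [isec, isec, wedge_comm]

/-- **The field `rr` of `BlockC.SurfIn`.** -/
theorem rr [CompactSpace X] [T2Space X] [ConnectedSpace X] (T : TwistData X)
    (hSerre : SerreStmt X) (hRR : RRStmt X) (hO : chi (OX X) 0 0 = 0)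
    (hpg : ∀ u : X → ℂ, Reg0 ∞ 1 u → dbar0 1 u = 0 → u = 0)
    (hhol : ∀ L : BlockC.ALB X, ∃ a, L.L.IsHol a) :
    ∀ L K : BlockC.ALB X, IsCanon K.L → ∃ k : ℕ, isec L.L L.L - isec K.L L.L = -2 * k := by
  intro L K hK
  obtain ⟨a, ha⟩ := hhol L
  obtain ⟨z, hz, hle⟩ := T.exists_chi_nonpos hSerre hpg ha 0
  have h1 := hRR L.ι K.ι L.L (a + z • T.β) K.L hz hK
  rw [hO, Int.cast_zero, zero_add, isec_comm L.L K.L] at h1
  obtain ⟨k, hk⟩ := Int.eq_ofNat_of_zero_le (neg_nonneg.2 hle)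
  refine ⟨k, ?_⟩
  have h2 : (chi L.L (a + z • T.β) 0 : ℤ) = -(k : ℤ) := by linarith
  rw [h2] at h1
  push_cast at h1
  linear_combination -2 * h1

end Vale.Agent.P267.H556
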